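import Vale.Agent.P146.H519.AsymC
import Vale.Agent.P146.H260.Dev4
import Vale.Agent.P146.H695.Top
import Vale.Agent.P146.H95.Top
import Vale.Agent.P146.R2.H533.Up2
import Vale.Agent.P146.R2.H533.VarPos
import Vale.Agent.P146.R2.H453.Lo3
import Vale.Agent.P146.X7.H737_HF

set_option linter.all false

/-!
# P146: asymmetry of the fluctuations

In units of the true standard deviation the right tail of the free energy is at least
`exp (- n ^ e u ^ (6/5))` for `n ^ e ≤ u ≤ δ n ^ (5/6 - e)`, the left tail is at most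
`exp (-u²/2)`, and the right tail exceeds the left one by the factor `exp (u²/4)`.
-/

open MeasureTheory ProbabilityTheory Filter Topology

namespace Vale.Agent.P146.H519

open Vale.Agent.P146 Vale.Agent.P146.H605 Vale.Agent.P146.R2

/-- The right tail. -/
noncomputable def PRt (β : ℝ) (n : ℕ) (t : ℝ) : ℝ :=
  (disorder n).real {g | ∫ h, freeEnergy n β h ∂(disorder n) + t ≤ freeEnergy n β g}

/-- The left tail. -/
noncomputable def PLt (β : ℝ) (n : ℕ) (t : ℝ) : ℝ :=
  (disorder n).real {g | freeEnergy n β g ≤ ∫ h, freeEnergy n β h ∂(disorder n) - t}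

lemma PRt_anti (β : ℝ) (n : ℕ) {s t : ℝ} (h : s ≤ t) : PRt β n t ≤ PRt β n s := by
  have := H260.Dev.prob n
  refine measureReal_mono (fun g hg => ?_) (measure_ne_top _ _)
  simp only [Set.mem_setOf_eq] at hg ⊢
  linarith

theorem asym0 {β : ℝ} (hβ : 1 < β) (hL : H260.Dev.Lob β (1 / 6)) :
    ∀ e : ℝ, 0 < e → ∃ δ : ℝ, 0 < δ ∧ ∀ᶠ n : ℕ in atTop, ∀ u : ℝ,
      (n : ℝ) ^ e ≤ u → u ≤ δ * (n : ℝ) ^ (5 / 6 - e) →
        Real.exp (-((n : ℝ) ^ e * u ^ (6 / 5 : ℝ))) ≤
          PRt β n (u * √(Var[freeEnergy n β; disorder n])) ∧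
        PLt β n (u * √(Var[freeEnergy n β; disorder n])) ≤ Real.exp (-(u ^ 2 / 2)) ∧
        Real.exp (u ^ 2 / 4) * PLt β n (u * √(Var[freeEnergy n β; disorder n])) ≤
          PRt β n (u * √(Var[freeEnergy n β; disorder n])) := by
  have hβ0 : 0 < β := by linarith
  have hU : H695.UpM β (1 / 16) := X7.H737.upM hβ0 (by norm_num)
  obtain ⟨δ, hδ, hR⟩ := H260.Dev.right_tailB hβ (by norm_num : (0 : ℝ) < 1 / 16) (by norm_num)
    hU (le_refl (1 / 6 : ℝ)) hL
  refine asym_core (V := fun n => Var[freeEnergy n β; disorder n]) (PR := PRt β) (PL := PLt β)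
    (fun n => variance_nonneg _ _) (fun d hd => ?_) (fun n s t h => PRt_anti β n h)
    ⟨δ, hδ, fun ε hε => ?_⟩ ?_
  · obtain ⟨D, hD, h⟩ := H95.fluct hβ0 d hd
    exact ⟨D, hD, fun n hn => (h n hn).var⟩
  · filter_upwards [hR ε hε] with n g s h1 h2
    exact (g s (by convert h1 using 2; norm_num) h2).1
  · filter_upwards [eventually_ge_atTop 2] with n hn u hu
    have hn1 : 1 ≤ n := by omega
    exact H533.gauss hn1 (fun t ht x hx => H453.Lo.sk_LB β hn1 ht.1 ht.2 hx)
      (H533.var_pos_of hn hβ0.ne' fun x => Vale.Agent.P146.Sx.integrable_exp n β x) hu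

/-- **Asymmetry.** -/
theorem asym {β : ℝ} (hβ : 1 < β) (hL : H260.Dev.Lob β (1 / 6)) :
    ∀ e : ℝ, 0 < e → ∃ δ : ℝ, 0 < δ ∧ ∀ᶠ n : ℕ in atTop, ∀ u : ℝ,
      (n : ℝ) ^ e ≤ u → u ≤ δ * (n : ℝ) ^ (5 / 6 - e) →
        Real.exp (-((n : ℝ) ^ e * u ^ (6 / 5 : ℝ))) ≤
          (disorder n).real {g | ∫ h, freeEnergy n β h ∂(disorder n) +
            u * √(Var[freeEnergy n β; disorder n]) ≤ freeEnergy n β g} ∧
        (disorder n).real {g | freeEnergy n β g ≤ ∫ h, freeEnergy n β h ∂(disorder n) -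
            u * √(Var[freeEnergy n β; disorder n])} ≤ Real.exp (-(u ^ 2 / 2)) ∧
        Real.exp (u ^ 2 / 4) * (disorder n).real {g | freeEnergy n β g ≤
            ∫ h, freeEnergy n β h ∂(disorder n) - u * √(Var[freeEnergy n β; disorder n])} ≤
          (disorder n).real {g | ∫ h, freeEnergy n β h ∂(disorder n) +
            u * √(Var[freeEnergy n β; disorder n]) ≤ freeEnergy n β g} :=
  asym0 hβ hL

end Vale.Agent.P146.H519
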