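import Mathlib

set_option linter.all false

/-!
# P146: asymmetry of the law, real analysis part

`PR n t` = probability of a deviation `≥ t` above the mean, `PL n t` = below the mean, `V n` = the
variance.  If `PR n (n s) ≥ exp (- n ^ (1 + ε) s ^ (6/5))` down to `s = n ^ (-5/6+ε)`,
`V n ≤ n ^ (1/3+d)` and `PL n (u √V) ≤ exp (-u²/2)`, then in units of the standard deviation the
right tail is at least `exp (- n ^ e u ^ (6/5))` for `n ^ e ≤ u ≤ δ n ^ (5/6-e)`, hence it is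
larger than `exp (u²/4)` times the left tail.
-/

open Filter Topology

namespace Vale.Agent.P146.H519

lemma ev_pow {u : ℝ} (hu : 0 < u) (C : ℝ) : ∀ᶠ n : ℕ in atTop, C ≤ (n : ℝ) ^ u :=
  ((tendsto_rpow_atTop hu).comp (tendsto_natCast_atTop_atTop (R := ℝ))).eventually_ge_atTop C

theorem asym_core {V : ℕ → ℝ} {PR PL : ℕ → ℝ → ℝ} (hV0 : ∀ n, 0 ≤ V n)
    (hV : ∀ d : ℝ, 0 < d → ∃ D : ℝ, 1 ≤ D ∧ ∀ n : ℕ, 1 ≤ n → V n ≤ D * (n : ℝ) ^ (1 / 3 + d))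
    (hanti : ∀ n, ∀ s t : ℝ, s ≤ t → PR n t ≤ PR n s)
    (hR : ∃ δ : ℝ, 0 < δ ∧ ∀ ε : ℝ, 0 < ε → ∀ᶠ n : ℕ in atTop, ∀ s : ℝ,
      (n : ℝ) ^ (-(5 / 6) + ε) ≤ s → s ≤ δ →
        Real.exp (-((n : ℝ) ^ (1 + ε) * s ^ (6 / 5 : ℝ))) ≤ PR n (n * s))
    (hL : ∀ᶠ n : ℕ in atTop, ∀ u : ℝ, 0 ≤ u → PL n (u * √(V n)) ≤ Real.exp (-(u ^ 2 / 2))) :
    ∀ e : ℝ, 0 < e → ∃ δ : ℝ, 0 < δ ∧ ∀ᶠ n : ℕ in atTop, ∀ u : ℝ,
      (n : ℝ) ^ e ≤ u → u ≤ δ * (n : ℝ) ^ (5 / 6 - e) →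
        Real.exp (-((n : ℝ) ^ e * u ^ (6 / 5 : ℝ))) ≤ PR n (u * √(V n)) ∧
        PL n (u * √(V n)) ≤ Real.exp (-(u ^ 2 / 2)) ∧
        Real.exp (u ^ 2 / 4) * PL n (u * √(V n)) ≤ PR n (u * √(V n)) := by
  intro e he
  obtain ⟨δ, hδ, hRn⟩ := hR
  obtain ⟨d, hd⟩ : ∃ d, d = e / 10 := ⟨_, rfl⟩
  have hd0 : 0 < d := by rw [hd]; positivity
  obtain ⟨D, hD1, hD⟩ := hV d hd0
  have hD0 : 0 < D := by linarith
  have hsD : 0 < √D := Real.sqrt_pos.2 hD0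
  refine ⟨δ / √D, by positivity, ?_⟩
  filter_upwards [hRn d hd0, hL, eventually_ge_atTop 1, ev_pow (show 0 < e / 10 by positivity)
    (max 4 (D ^ (3 / 5 : ℝ)))] with n g1 g2 g3 g4 u hu hu1
  have hn1 : (1 : ℝ) ≤ n := by exact_mod_cast g3
  have hn0 : (0 : ℝ) < n := by linarith
  have hu0 : 0 < u := (Real.rpow_pos_of_pos hn0 _).trans_le hu
  have h4 : (4 : ℝ) ≤ (n : ℝ) ^ (e / 10) := (le_max_left _ _).trans g4
  have hDn : D ^ (3 / 5 : ℝ) ≤ (n : ℝ) ^ (e / 10) := (le_max_right _ _).trans g4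
  -- the deviation `s`
  obtain ⟨s, hs⟩ : ∃ s, s = u * (√D * (n : ℝ) ^ (-(5 / 6) + d / 2)) := ⟨_, rfl⟩
  have hs0 : 0 < s := by rw [hs]; positivity
  have hsV : √(V n) ≤ √D * (n : ℝ) ^ (1 / 6 + d / 2) := by
    have h1 : √(V n) ≤ √(D * (n : ℝ) ^ (1 / 3 + d)) := Real.sqrt_le_sqrt (hD n g3)
    have h2 : √(D * (n : ℝ) ^ (1 / 3 + d)) = √D * (n : ℝ) ^ (1 / 6 + d / 2) := by
      rw [Real.sqrt_mul hD0.le, Real.sqrt_eq_rpow ((n : ℝ) ^ (1 / 3 + d)), ← Real.rpow_mul hn0.le]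
      congr 2
      ring
    rwa [h2] at h1
  have hns : n * s = u * (√D * (n : ℝ) ^ (1 / 6 + d / 2)) := by
    have : (n : ℝ) * (n : ℝ) ^ (-(5 / 6) + d / 2) = (n : ℝ) ^ (1 / 6 + d / 2) := by
      nth_rewrite 1 [← Real.rpow_one (n : ℝ)]
      rw [← Real.rpow_add hn0]
      congr 1
      ring
    rw [hs, ← this]
    ring
  have hle : u * √(V n) ≤ n * s := by
    rw [hns]
    exact mul_le_mul_of_nonneg_left hsV hu0.le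
  have hlow : (n : ℝ) ^ (-(5 / 6) + d) ≤ s := by
    have h1 : (n : ℝ) ^ (-(5 / 6) + d) ≤ (n : ℝ) ^ e * (n : ℝ) ^ (-(5 / 6) + d / 2) := by
      rw [← Real.rpow_add hn0]
      exact Real.rpow_le_rpow_of_exponent_le hn1 (by rw [hd]; linarith)
    have h2 : (1 : ℝ) ≤ √D := Real.one_le_sqrt.2 hD1
    calc (n : ℝ) ^ (-(5 / 6) + d) ≤ (n : ℝ) ^ e * (n : ℝ) ^ (-(5 / 6) + d / 2) := h1
      _ ≤ u * (n : ℝ) ^ (-(5 / 6) + d / 2) := by gcongr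
      _ ≤ u * (√D * (n : ℝ) ^ (-(5 / 6) + d / 2)) := by
          have : 0 < (n : ℝ) ^ (-(5 / 6) + d / 2) := Real.rpow_pos_of_pos hn0 _
          have h3 : (n : ℝ) ^ (-(5 / 6) + d / 2) ≤ √D * (n : ℝ) ^ (-(5 / 6) + d / 2) := by
            nlinarith
          exact mul_le_mul_of_nonneg_left h3 hu0.le
      _ = s := hs.symm
  have hup : s ≤ δ := by
    have h1 : (n : ℝ) ^ (5 / 6 - e) * (n : ℝ) ^ (-(5 / 6) + d / 2) ≤ 1 := by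
      rw [← Real.rpow_add hn0]
      exact Real.rpow_le_one_of_one_le_of_nonpos hn1 (by rw [hd]; linarith)
    have h0 : 0 < (n : ℝ) ^ (-(5 / 6) + d / 2) := Real.rpow_pos_of_pos hn0 _
    calc s = u * (√D * (n : ℝ) ^ (-(5 / 6) + d / 2)) := hs
      _ ≤ (δ / √D * (n : ℝ) ^ (5 / 6 - e)) * (√D * (n : ℝ) ^ (-(5 / 6) + d / 2)) := by gcongr
      _ = δ * ((n : ℝ) ^ (5 / 6 - e) * (n : ℝ) ^ (-(5 / 6) + d / 2)) := by
          field_simp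
      _ ≤ δ * 1 := by gcongr
      _ = δ := mul_one _
  have h5 := g1 s hlow hup
  -- the exponent
  have hexp : (n : ℝ) ^ (1 + d) * s ^ (6 / 5 : ℝ) ≤ (n : ℝ) ^ (e / 2) * u ^ (6 / 5 : ℝ) := by
    have h1 : s ^ (6 / 5 : ℝ) = u ^ (6 / 5 : ℝ) * (D ^ (3 / 5 : ℝ) *
        (n : ℝ) ^ ((-(5 / 6) + d / 2) * (6 / 5))) := by
      rw [hs, Real.mul_rpow hu0.le (by positivity), Real.mul_rpow hsD.le (by positivity),
        ← Real.rpow_mul hn0.le, Real.sqrt_eq_rpow, ← Real.rpow_mul hD0.le]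
      norm_num
    have h2 : (n : ℝ) ^ (1 + d) * (n : ℝ) ^ ((-(5 / 6) + d / 2) * (6 / 5)) =
        (n : ℝ) ^ (8 * d / 5) := by
      rw [← Real.rpow_add hn0]
      congr 1
      ring
    have h3 : 0 < u ^ (6 / 5 : ℝ) := Real.rpow_pos_of_pos hu0 _
    have h6 : (n : ℝ) ^ (8 * d / 5) * D ^ (3 / 5 : ℝ) ≤ (n : ℝ) ^ (e / 2) := by
      calc (n : ℝ) ^ (8 * d / 5) * D ^ (3 / 5 : ℝ)
          ≤ (n : ℝ) ^ (8 * d / 5) * (n : ℝ) ^ (e / 10) := by gcongr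
        _ = (n : ℝ) ^ (8 * d / 5 + e / 10) := by rw [← Real.rpow_add hn0]
        _ ≤ (n : ℝ) ^ (e / 2) :=
            Real.rpow_le_rpow_of_exponent_le hn1 (by rw [hd]; linarith)
    calc (n : ℝ) ^ (1 + d) * s ^ (6 / 5 : ℝ)
        = ((n : ℝ) ^ (1 + d) * (n : ℝ) ^ ((-(5 / 6) + d / 2) * (6 / 5))) * D ^ (3 / 5 : ℝ) *
            u ^ (6 / 5 : ℝ) := by rw [h1]; ring
      _ = (n : ℝ) ^ (8 * d / 5) * D ^ (3 / 5 : ℝ) * u ^ (6 / 5 : ℝ) := by rw [h2]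
      _ ≤ (n : ℝ) ^ (e / 2) * u ^ (6 / 5 : ℝ) := mul_le_mul_of_nonneg_right h6 h3.le
  have hR1 : Real.exp (-((n : ℝ) ^ (e / 2) * u ^ (6 / 5 : ℝ))) ≤ PR n (u * √(V n)) :=
    (Real.exp_le_exp.2 (neg_le_neg hexp)).trans (h5.trans (hanti n _ _ hle))
  have hL1 := g2 u hu0.le
  refine ⟨le_trans (Real.exp_le_exp.2 (neg_le_neg ?_)) hR1, hL1, ?_⟩
  · have : (n : ℝ) ^ (e / 2) ≤ (n : ℝ) ^ e :=
      Real.rpow_le_rpow_of_exponent_le hn1 (by linarith)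
    have h3 : 0 < u ^ (6 / 5 : ℝ) := Real.rpow_pos_of_pos hu0 _
    exact mul_le_mul_of_nonneg_right this h3.le
  · -- comparison of the two tails
    have h7 : (n : ℝ) ^ (e / 2) * u ^ (6 / 5 : ℝ) ≤ u ^ 2 / 4 := by
      have h8 : u ^ 2 = u ^ (6 / 5 : ℝ) * u ^ (4 / 5 : ℝ) := by
        rw [← Real.rpow_add hu0]
        norm_num
      have h9 : 4 * (n : ℝ) ^ (e / 2) ≤ u ^ (4 / 5 : ℝ) := by
        calc 4 * (n : ℝ) ^ (e / 2) ≤ (n : ℝ) ^ (e / 10) * (n : ℝ) ^ (e / 2) := by gcongr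
          _ = (n : ℝ) ^ (e / 10 + e / 2) := by rw [← Real.rpow_add hn0]
          _ ≤ (n : ℝ) ^ (e * (4 / 5)) :=
              Real.rpow_le_rpow_of_exponent_le hn1 (by linarith)
          _ = ((n : ℝ) ^ e) ^ (4 / 5 : ℝ) := by rw [← Real.rpow_mul hn0.le]
          _ ≤ u ^ (4 / 5 : ℝ) := Real.rpow_le_rpow (by positivity) hu (by norm_num)
      have h3 : 0 < u ^ (6 / 5 : ℝ) := Real.rpow_pos_of_pos hu0 _
      rw [h8]
      nlinarith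
    calc Real.exp (u ^ 2 / 4) * PL n (u * √(V n))
        ≤ Real.exp (u ^ 2 / 4) * Real.exp (-(u ^ 2 / 2)) :=
          mul_le_mul_of_nonneg_left hL1 (Real.exp_pos _).le
      _ = Real.exp (-(u ^ 2 / 4)) := by rw [← Real.exp_add]; congr 1; ring
      _ ≤ Real.exp (-((n : ℝ) ^ (e / 2) * u ^ (6 / 5 : ℝ))) := Real.exp_le_exp.2 (neg_le_neg h7)
      _ ≤ PR n (u * √(V n)) := hR1

end Vale.Agent.P146.H519
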